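import Vale.Agent.Lib.P002.G1Defs

/-!
# P002 pool job G1-D (second copy, helper11): the polynomial frame from adjugate columns

Each statement is one entry of the identity `T * adjugate T = det T • 1` for `T = ulT N m`.
-/

namespace Vale.Agent.Lib.P002.H11

open Matrix
open Vale.Agent.Lib.P002

/-- Row `i` of `ulT N m` against column `m` of the frame. -/
theorem ulT_mul_ulF {S : Type*} [CommRing S] {n : ℕ} (N : Matrix (Fin n) (Fin n) S)
    (m i : Fin n) :
    ∑ l, ulT N m i l * ulF N l m =
      (ulT N m).det * (1 : Matrix (Fin n) (Fin n) S) i (Fin.rev m) := by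
  have h := congrFun (congrFun (Matrix.mul_adjugate (ulT N m)) i) (Fin.rev m)
  rw [Matrix.mul_apply, Matrix.smul_apply, smul_eq_mul] at h
  exact h

theorem ulF_ut {S : Type*} [CommRing S] {n : ℕ} (N : Matrix (Fin n) (Fin n) S) :
    ∀ i j, j < i → ulF N i j = 0 := by
  intro i j hji
  have hji' : j.val < i.val := hji
  have hi := i.isLt
  have hlt : i.val - j.val - 1 < n := by omega
  have h := ulT_mul_ulF N j ⟨i.val - j.val - 1, hlt⟩
  have hrow : ∀ l : Fin n, ulT N j ⟨i.val - j.val - 1, hlt⟩ l = if l = i then 1 else 0 := by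
    intro l
    have h2 : i.val - j.val - 1 + j.val + 1 = i.val := by omega
    simp only [ulT, Matrix.of_apply, h2, Fin.val_inj, if_pos hi]
  rw [Finset.sum_eq_single i] at h
  · rw [hrow, if_pos rfl, one_mul] at h
    rw [h, Matrix.one_apply, if_neg, mul_zero]
    intro hc
    have h3 := congrArg Fin.val hc
    rw [Fin.val_rev] at h3
    simp only at h3
    omega
  · intro b _ hb
    rw [hrow, if_neg hb, zero_mul]
  · intro hc
    exact absurd (Finset.mem_univ _) hc

theorem ulF_mul {S : Type*} [CommRing S] {n : ℕ} (N : Matrix (Fin n) (Fin n) S) :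
    ∀ i j, j < i → (N * ulF N * revM S n) i j = 0 := by
  intro i j hji
  have hji' : j.val < i.val := hji
  have hi := i.isLt
  have hj := j.isLt
  rw [mul_revM, Matrix.mul_apply]
  have h := ulT_mul_ulF N (Fin.rev j) i
  have hrow : ∀ l : Fin n, ulT N (Fin.rev j) i l = N i l := by
    intro l
    have h1 : ¬ (i.val + (Fin.rev j).val + 1 < n) := by rw [Fin.val_rev]; omega
    have h2 : ¬ (i.val + (Fin.rev j).val + 1 = n) := by rw [Fin.val_rev]; omega
    simp only [ulT, Matrix.of_apply, if_neg h1, if_neg h2]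
  simp only [hrow] at h
  have hne : i ≠ j := fun hc => by rw [hc] at hji; exact lt_irrefl _ hji
  rw [h, Fin.rev_rev, Matrix.one_apply_ne hne, mul_zero]

theorem ulF_diag {S : Type*} [CommRing S] {n : ℕ} (N : Matrix (Fin n) (Fin n) S) (m : Fin n) :
    ulF N m m = (ulT N m).det := by
  have hm := m.isLt
  have h := ulT_mul_ulF N m (Fin.rev m)
  have hrow : ∀ l : Fin n, ulT N m (Fin.rev m) l = if l = m then 1 else 0 := by
    intro l
    have h1 : ¬ ((Fin.rev m).val + m.val + 1 < n) := by rw [Fin.val_rev]; omega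
    have h2 : (Fin.rev m).val + m.val + 1 = n := by rw [Fin.val_rev]; omega
    simp only [ulT, Matrix.of_apply, if_neg h1, if_pos h2]
  rw [Finset.sum_eq_single m] at h
  · rw [hrow, if_pos rfl, one_mul] at h
    rw [h, Matrix.one_apply_eq, mul_one]
  · intro b _ hb
    rw [hrow, if_neg hb, zero_mul]
  · intro hc
    exact absurd (Finset.mem_univ _) hc

end Vale.Agent.Lib.P002.H11
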